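import Vale.Agent.P141.PL.Defs

/-!
# P141: exponential tail of the number of nested marked cells

`R` a finite set with weights `w ≥ 0`, `q k y` : the cell of scale `k` of the point `y` is marked,
`cnA (q · y) K k` : the number of marked cells of scales `k, …, K` at `y`.
Packing `B` in every marked cell (mass of the marked cells inside, with multiplicity, at most `B`
times the mass of the cell) gives
`tT (lam + 1) ≤ (1 - 1 / B) * tT lam`, `tT lam` = mass of the marked cells, with multiplicity, for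
which at least `lam` marked cells contain them (themselves included).
Real letters: `pack_tail2` (squares), `pack_tail3` (cubes).
-/

namespace Vale.Agent.P141.H15P

open Finset
open Vale.Agent.P141.PL (Pt iv ix cb cx mem_iv mem_cb card_iv card_cb ix_ix)

noncomputable section

open scoped Classical

/-! ### One point -/

/-- the number of marked scales in `[k, K]` -/
def cnA (q : ℕ → Prop) (K k : ℕ) : ℕ := ∑ i ∈ Ico k (K + 1), if q i then 1 else 0

/-- the number of marked scales at most `k` -/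
def cnB (q : ℕ → Prop) (k : ℕ) : ℕ := ∑ i ∈ range (k + 1), if q i then 1 else 0

theorem cnA_top (q : ℕ → Prop) {K k : ℕ} (h : K < k) : cnA q K k = 0 := by
  unfold cnA
  rw [Ico_eq_empty (by omega), sum_empty]

theorem cnA_succ (q : ℕ → Prop) {K k : ℕ} (h : k ≤ K) :
    cnA q K k = (if q k then 1 else 0) + cnA q K (k + 1) := by
  unfold cnA
  rw [sum_eq_sum_Ico_succ_bot (by omega)]

theorem cnA_congr {q q' : ℕ → Prop} {K k : ℕ} (h : ∀ i, k ≤ i → i ≤ K → (q i ↔ q' i)) :
    cnA q K k = cnA q' K k := by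
  unfold cnA
  refine sum_congr rfl fun i hi => ?_
  rw [mem_Ico] at hi
  have := h i hi.1 (by omega)
  by_cases a : q i
  · rw [if_pos a, if_pos (this.1 a)]
  · rw [if_neg a, if_neg fun b => a (this.2 b)]

theorem cnA_anti (q : ℕ → Prop) (K : ℕ) {j k : ℕ} (h : j ≤ k) : cnA q K k ≤ cnA q K j := by
  unfold cnA
  exact sum_le_sum_of_subset fun i hi => by rw [mem_Ico] at hi ⊢; omega

theorem cnA_exists (q : ℕ → Prop) (K lam : ℕ) (hl : 1 ≤ lam) (d : ℕ) :
    ∀ j, K + 1 - j ≤ d → lam ≤ cnA q K j → ∃ k, j ≤ k ∧ k ≤ K ∧ q k ∧ cnA q K k = lam := by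
  induction d with
  | zero =>
    intro j hj h
    rw [cnA_top q (by omega)] at h
    omega
  | succ d ih =>
    intro j hj h
    rcases Nat.lt_or_ge K j with hK | hK
    · rw [cnA_top q hK] at h
      omega
    · by_cases hq : q j
      · by_cases he : cnA q K j = lam
        · exact ⟨j, le_rfl, hK, hq, he⟩
        · have h2 := cnA_succ q hK
          rw [if_pos hq] at h2
          obtain ⟨k, h3, h4, h5, h6⟩ := ih (j + 1) (by omega) (by omega)
          exact ⟨k, by omega, h4, h5, h6⟩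
      · have h2 := cnA_succ q hK
        rw [if_neg hq, zero_add] at h2
        obtain ⟨k, h3, h4, h5, h6⟩ := ih (j + 1) (by omega) (by omega)
        exact ⟨k, by omega, h4, h5, h6⟩

/-- the marks of number at least `lam` at one point -/
theorem pt_le (q : ℕ → Prop) (K lam : ℕ) (hl : 1 ≤ lam) :
    (∑ j ∈ range (K + 1), if q j ∧ lam ≤ cnA q K j then (1 : ℝ) else 0) ≤
      ∑ k ∈ range (K + 1), if q k ∧ cnA q K k = lam then (cnB q k : ℝ) else 0 := by
  have h1 : (∑ k ∈ range (K + 1), if q k ∧ cnA q K k = lam then (cnB q k : ℝ) else 0) =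
      ∑ j ∈ range (K + 1), ∑ k ∈ range (K + 1),
        if j ≤ k ∧ q j ∧ q k ∧ cnA q K k = lam then (1 : ℝ) else 0 := by
    rw [sum_comm]
    refine sum_congr rfl fun k hk => ?_
    rw [mem_range] at hk
    by_cases a : q k ∧ cnA q K k = lam
    · rw [if_pos a]
      unfold cnB
      push_cast
      have h2 : (∑ j ∈ range (K + 1), if j ≤ k ∧ q j ∧ q k ∧ cnA q K k = lam then (1 : ℝ) else 0) =
          ∑ j ∈ range (k + 1), if j ≤ k ∧ q j ∧ q k ∧ cnA q K k = lam then (1 : ℝ) else 0 := by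
        refine (sum_subset (range_subset_range.2 (by omega)) fun j _ hj => ?_).symm
        rw [mem_range] at hj
        rw [if_neg fun h => hj (by omega)]
      rw [h2]
      refine sum_congr rfl fun j hj => ?_
      rw [mem_range] at hj
      by_cases b : q j
      · rw [if_pos b, if_pos ⟨by omega, b, a⟩]
      · rw [if_neg b, if_neg fun h => b h.2.1]
    · rw [if_neg a]
      exact (sum_eq_zero fun j _ => if_neg fun h => a h.2.2).symm
  rw [h1]
  refine sum_le_sum fun j hj => ?_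
  rw [mem_range] at hj
  by_cases a : q j ∧ lam ≤ cnA q K j
  · rw [if_pos a]
    obtain ⟨k, h3, h4, h5, h6⟩ := cnA_exists q K lam hl (K + 1 - j) j le_rfl a.2
    have h7 : (if j ≤ k ∧ q j ∧ q k ∧ cnA q K k = lam then (1 : ℝ) else 0) = 1 :=
      if_pos ⟨h3, a.1, h5, h6⟩
    refine h7.symm.le.trans (single_le_sum
      (f := fun k => if j ≤ k ∧ q j ∧ q k ∧ cnA q K k = lam then (1 : ℝ) else 0)
      (fun i _ => ?_) (mem_range.2 (by omega)))
    show (0 : ℝ) ≤ if j ≤ i ∧ q j ∧ q i ∧ cnA q K i = lam then (1 : ℝ) else 0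
    split_ifs
    · exact zero_le_one
    · exact le_rfl
  · rw [if_neg a]
    refine sum_nonneg fun i _ => ?_
    split_ifs
    · exact zero_le_one
    · exact le_rfl

/-! ### The tree -/

section tree

variable {Y Z : Type*} (R : Finset Y) (w : Y → ℝ) (q : ℕ → Y → Prop) (K : ℕ)

/-- mass of the marked cells with at least `lam` marked cells above -/
def tT (lam : ℕ) : ℝ :=
  ∑ y ∈ R, w y * ∑ k ∈ range (K + 1), if q k y ∧ lam ≤ cnA (fun i => q i y) K k then (1 : ℝ) else 0

/-- mass of the marked cells with exactly `lam` marked cells above -/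
def tS (lam : ℕ) : ℝ :=
  ∑ y ∈ R, w y * ∑ k ∈ range (K + 1), if q k y ∧ cnA (fun i => q i y) K k = lam then (1 : ℝ) else 0

theorem tT_eq (lam : ℕ) : tT R w q K lam = tS R w q K lam + tT R w q K (lam + 1) := by
  unfold tT tS
  rw [← sum_add_distrib]
  refine sum_congr rfl fun y _ => ?_
  rw [← mul_add, ← sum_add_distrib]
  congr 1
  refine sum_congr rfl fun k _ => ?_
  by_cases a : q k y
  · rcases Nat.lt_trichotomy (cnA (fun i => q i y) K k) lam with h | h | h
    · rw [if_neg fun b => by omega, if_neg fun b => by omega, if_neg fun b => by omega, add_zero]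
    · rw [if_pos ⟨a, h.ge⟩, if_pos ⟨a, h⟩, if_neg fun b => by omega, add_zero]
    · rw [if_pos ⟨a, h.le⟩, if_neg fun b => by omega, if_pos ⟨a, h⟩, zero_add]
  · rw [if_neg fun b => a b.1, if_neg fun b => a b.1, if_neg fun b => a b.1, add_zero]

variable {R w q K}

theorem tT_nonneg (hw : ∀ y ∈ R, 0 ≤ w y) (lam : ℕ) : 0 ≤ tT R w q K lam := by
  refine sum_nonneg fun y hy => mul_nonneg (hw y hy) (sum_nonneg fun k _ => ?_)
  split_ifs
  · exact zero_le_one
  · exact le_rfl

theorem tT_le_tS (hw : ∀ y ∈ R, 0 ≤ w y) {c : ℕ → Y → Z} {B : ℝ}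
    (hc : ∀ k ≤ K, ∀ y ∈ R, ∀ y' ∈ R, c k y = c k y' → ∀ i, k ≤ i → i ≤ K → (q i y ↔ q i y'))
    (hp : ∀ k ≤ K, ∀ y₀ ∈ R, q k y₀ → ∑ y ∈ R.filter (fun y => c k y = c k y₀),
      w y * (cnB (fun i => q i y) k : ℝ) ≤ B * ∑ y ∈ R.filter (fun y => c k y = c k y₀), w y)
    {lam : ℕ} (hl : 1 ≤ lam) : tT R w q K lam ≤ B * tS R w q K lam := by
  have h1 : tT R w q K lam ≤ ∑ k ∈ range (K + 1), ∑ y ∈ R,
      if q k y ∧ cnA (fun i => q i y) K k = lam then w y * (cnB (fun i => q i y) k : ℝ) else 0 := by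
    rw [sum_comm]
    unfold tT
    refine sum_le_sum fun y hy => ?_
    refine (mul_le_mul_of_nonneg_left (pt_le (fun i => q i y) K lam hl) (hw y hy)).trans ?_
    rw [mul_sum]
    refine sum_le_sum fun k _ => ?_
    split_ifs
    · exact le_rfl
    · rw [mul_zero]
  refine h1.trans ?_
  have h2 : B * tS R w q K lam = ∑ k ∈ range (K + 1), B * ∑ y ∈ R,
      if q k y ∧ cnA (fun i => q i y) K k = lam then w y else 0 := by
    unfold tS
    rw [← mul_sum, sum_comm]
    congr 1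
    refine sum_congr rfl fun y _ => ?_
    rw [mul_sum]
    refine sum_congr rfl fun k _ => ?_
    split_ifs
    · rw [mul_one]
    · rw [mul_zero]
  rw [h2]
  refine sum_le_sum fun k hk => ?_
  rw [mem_range] at hk
  have hk' : k ≤ K := by omega
  rw [← sum_filter, ← sum_filter]
  set P : Finset Y := R.filter fun y => q k y ∧ cnA (fun i => q i y) K k = lam with hP
  have hfib : ∀ f : Y → ℝ, ∑ y ∈ P, f y = ∑ z ∈ P.image (c k), ∑ y ∈ P.filter (fun y => c k y = z),
      f y := fun f => (sum_fiberwise_of_maps_to (fun y hy => mem_image_of_mem _ hy) f).symm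
  rw [hfib, hfib (fun y => w y), mul_sum]
  refine sum_le_sum fun z hz => ?_
  obtain ⟨y₀, hy₀, rfl⟩ := mem_image.1 hz
  rw [hP, mem_filter] at hy₀
  have hset : P.filter (fun y => c k y = c k y₀) = R.filter fun y => c k y = c k y₀ := by
    ext y
    rw [mem_filter, hP, mem_filter, mem_filter]
    constructor
    · rintro ⟨⟨a, _⟩, b⟩
      exact ⟨a, b⟩
    · rintro ⟨a, b⟩
      refine ⟨⟨a, (hc k hk' y a y₀ hy₀.1 b k le_rfl hk').2 hy₀.2.1, ?_⟩, b⟩
      rw [cnA_congr (q' := fun i => q i y₀) fun i hi hi' => hc k hk' y a y₀ hy₀.1 b i hi hi']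
      exact hy₀.2.2
  rw [hset]
  exact hp k hk' y₀ hy₀.1 hy₀.2.1

/-- **One step of the tail.** -/
theorem tT_step (hw : ∀ y ∈ R, 0 ≤ w y) {c : ℕ → Y → Z} {B : ℝ} (hB : 0 < B)
    (hc : ∀ k ≤ K, ∀ y ∈ R, ∀ y' ∈ R, c k y = c k y' → ∀ i, k ≤ i → i ≤ K → (q i y ↔ q i y'))
    (hp : ∀ k ≤ K, ∀ y₀ ∈ R, q k y₀ → ∑ y ∈ R.filter (fun y => c k y = c k y₀),
      w y * (cnB (fun i => q i y) k : ℝ) ≤ B * ∑ y ∈ R.filter (fun y => c k y = c k y₀), w y)
    {lam : ℕ} (hl : 1 ≤ lam) : tT R w q K (lam + 1) ≤ (1 - 1 / B) * tT R w q K lam := by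
  have h1 := tT_le_tS hw hc hp hl
  have h2 := tT_eq R w q K lam
  have h3 : tT R w q K lam / B ≤ tS R w q K lam := by
    rw [div_le_iff₀ hB]
    linarith
  have h4 : (1 - 1 / B) * tT R w q K lam = tT R w q K lam - tT R w q K lam / B := by ring
  rw [h4]
  linarith

/-- **The tail.** -/
theorem tT_le (hw : ∀ y ∈ R, 0 ≤ w y) {c : ℕ → Y → Z} {B : ℝ} (hB : 1 ≤ B)
    (hc : ∀ k ≤ K, ∀ y ∈ R, ∀ y' ∈ R, c k y = c k y' → ∀ i, k ≤ i → i ≤ K → (q i y ↔ q i y'))
    (hp : ∀ k ≤ K, ∀ y₀ ∈ R, q k y₀ → ∑ y ∈ R.filter (fun y => c k y = c k y₀),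
      w y * (cnB (fun i => q i y) k : ℝ) ≤ B * ∑ y ∈ R.filter (fun y => c k y = c k y₀), w y)
    {B₀ : ℝ} (h0 : ∑ y ∈ R, w y * (cnB (fun i => q i y) K : ℝ) ≤ B₀) (lam : ℕ) :
    tT R w q K (lam + 1) ≤ (1 - 1 / B) ^ lam * B₀ := by
  have hB0 : 0 < B := by linarith
  have hr : 0 ≤ 1 - 1 / B := by
    have : 1 / B ≤ 1 := by rw [div_le_one hB0]; exact hB
    linarith
  induction lam with
  | zero =>
    rw [pow_zero, one_mul, zero_add]
    refine le_trans (sum_le_sum fun y hy => mul_le_mul_of_nonneg_left ?_ (hw y hy)) h0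
    unfold cnB
    push_cast
    refine sum_le_sum fun k _ => ?_
    by_cases a : q k y
    · rw [if_pos a]
      split_ifs
      · exact le_rfl
      · exact zero_le_one
    · rw [if_neg a, if_neg fun b => a b.1]
  | succ lam ih =>
    refine (tT_step hw hB0 hc hp (by omega)).trans ?_
    refine (mul_le_mul_of_nonneg_left ih hr).trans (le_of_eq ?_)
    rw [pow_succ]
    ring

end tree

/-! ### Squares and cubes -/

theorem ix_up {k i : ℕ} (h : k ≤ i) {a b : ℤ} (e : ix k a = ix k b) : ix i a = ix i b := by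
  obtain ⟨d, rfl⟩ := Nat.exists_eq_add_of_le h
  rw [← ix_ix, ← ix_ix, e]

/-- local packing of squares, point form -/
def SqPack (Q : ℕ → ℤ → ℤ → Prop) (K : ℕ) (B : ℝ) : Prop :=
  ∀ k ≤ K, ∀ n m : ℤ, ∑ y ∈ iv k n ×ˢ iv k m, ∑ j ∈ range (k + 1),
    (if Q j (ix j y.1) (ix j y.2) then (1 : ℝ) else 0) ≤ B * 4 ^ k

/-- **Tail of the number of nested marked squares.** -/
theorem pack_tail2 {Q : ℕ → ℤ → ℤ → Prop} {K : ℕ} {B : ℝ} (hB : 1 ≤ B) (h : SqPack Q K B)
    (r s : ℤ) (lam : ℕ) :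
    ∑ y ∈ iv K r ×ˢ iv K s, ∑ k ∈ range (K + 1),
      (if Q k (ix k y.1) (ix k y.2) ∧
        lam + 1 ≤ cnA (fun i => Q i (ix i y.1) (ix i y.2)) K k then (1 : ℝ) else 0) ≤
      (1 - 1 / B) ^ lam * (B * 4 ^ K) := by
  have key := tT_le (R := iv K r ×ˢ iv K s) (w := fun _ : ℤ × ℤ => (1 : ℝ))
    (q := fun k y => Q k (ix k y.1) (ix k y.2)) (K := K) (fun _ _ => zero_le_one)
    (c := fun k y => (ix k y.1, ix k y.2)) hB ?_ ?_ (B₀ := B * 4 ^ K) ?_ lam
  · refine le_trans (le_of_eq ?_) key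
    unfold tT
    refine sum_congr rfl fun y _ => ?_
    rw [one_mul]
  · intro k _ y _ y' _ hyy i hi _
    have h1 := ix_up hi (Prod.mk.inj hyy).1
    have h2 := ix_up hi (Prod.mk.inj hyy).2
    show Q i (ix i y.1) (ix i y.2) ↔ Q i (ix i y'.1) (ix i y'.2)
    rw [h1, h2]
  · intro k hk y₀ hy₀ _
    rw [mem_product, mem_iv, mem_iv] at hy₀
    have hset : ∀ d : DecidablePred fun y : ℤ × ℤ => (ix k y.1, ix k y.2) = (ix k y₀.1, ix k y₀.2),
        @Finset.filter (ℤ × ℤ) (fun y => (ix k y.1, ix k y.2) = (ix k y₀.1, ix k y₀.2)) d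
        (iv K r ×ˢ iv K s) = iv k (ix k y₀.1) ×ˢ iv k (ix k y₀.2) := by
      intro d
      ext y
      rw [mem_filter, mem_product, mem_product, mem_iv, mem_iv, mem_iv, mem_iv]
      constructor
      · rintro ⟨_, b⟩
        exact ⟨(Prod.mk.inj b).1, (Prod.mk.inj b).2⟩
      · rintro ⟨a, b⟩
        refine ⟨⟨?_, ?_⟩, Prod.ext a b⟩
        · rw [← hy₀.1]; exact ix_up hk a
        · rw [← hy₀.2]; exact ix_up hk b
    rw [hset, sum_const, card_product, card_iv, card_iv, nsmul_eq_mul, mul_one]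
    refine le_trans (le_of_eq ?_) ((h k hk (ix k y₀.1) (ix k y₀.2)).trans (le_of_eq ?_))
    · refine sum_congr rfl fun y _ => ?_
      unfold cnB
      push_cast
      rw [one_mul]
    · push_cast
      rw [← mul_pow]
      norm_num
  · refine le_trans (le_of_eq ?_) (h K le_rfl r s)
    refine sum_congr rfl fun y _ => ?_
    unfold cnB
    push_cast
    rw [one_mul]

/-- **Tail of the number of nested marked cubes.** -/
theorem pack_tail3 {A : ℕ → Pt → Prop} {K : ℕ} {B : ℝ} (hB : 1 ≤ B)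
    (h : ∀ k ≤ K, ∀ m : Pt, ∑ y ∈ cb k m, ∑ j ∈ range (k + 1),
      (if A j (cx j y) then (1 : ℝ) else 0) ≤ B * 8 ^ k) (M : Pt) (lam : ℕ) :
    ∑ y ∈ cb K M, ∑ k ∈ range (K + 1),
      (if A k (cx k y) ∧ lam + 1 ≤ cnA (fun i => A i (cx i y)) K k then (1 : ℝ) else 0) ≤
      (1 - 1 / B) ^ lam * (B * 8 ^ K) := by
  have hup : ∀ {k i : ℕ} (_ : k ≤ i) {a b : Pt} (_ : cx k a = cx k b), cx i a = cx i b := by
    intro k i hi a b e
    unfold cx at e ⊢
    have e1 := (Prod.mk.inj e).1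
    have e2 := (Prod.mk.inj (Prod.mk.inj e).2).1
    have e3 := (Prod.mk.inj (Prod.mk.inj e).2).2
    rw [ix_up hi e1, ix_up hi e2, ix_up hi e3]
  have key := tT_le (R := cb K M) (w := fun _ : Pt => (1 : ℝ))
    (q := fun k y => A k (cx k y)) (K := K) (fun _ _ => zero_le_one)
    (c := fun k y => cx k y) hB ?_ ?_ (B₀ := B * 8 ^ K) ?_ lam
  · refine le_trans (le_of_eq ?_) key
    unfold tT
    refine sum_congr rfl fun y _ => ?_
    rw [one_mul]
  · intro k _ y _ y' _ hyy i hi _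
    show A i (cx i y) ↔ A i (cx i y')
    rw [hup hi hyy]
  · intro k hk y₀ hy₀ _
    rw [mem_cb] at hy₀
    have hset : ∀ d : DecidablePred fun y : Pt => cx k y = cx k y₀,
        @Finset.filter Pt (fun y => cx k y = cx k y₀) d (cb K M) = cb k (cx k y₀) := by
      intro d
      ext y
      rw [mem_filter, mem_cb, mem_cb]
      constructor
      · rintro ⟨_, b⟩
        exact b
      · intro b
        exact ⟨by rw [← hy₀]; exact hup hk b, b⟩
    rw [hset, sum_const, card_cb, nsmul_eq_mul, mul_one]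
    refine le_trans (le_of_eq ?_) ((h k hk (cx k y₀)).trans (le_of_eq ?_))
    · refine sum_congr rfl fun y _ => ?_
      unfold cnB
      push_cast
      rw [one_mul]
    · push_cast
      ring
  · refine le_trans (le_of_eq ?_) (h K le_rfl M)
    refine sum_congr rfl fun y _ => ?_
    unfold cnB
    push_cast
    rw [one_mul]

end

end Vale.Agent.P141.H15P
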